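import Vale.Agent.P340.Defs
import Mathlib.Data.Set.Finite.Basic

namespace Vale.Agent.P340.H744

universe u

open Tm

variable {S : Type u}

/-- One-step eta reduction, in any subexpression: the contraction of `λx:A. M x` to `M`, where
`x` is not free in `M` (`wk M` is `M` with all free variables shifted past `x`). -/
inductive EtaStep : Tm S → Tm S → Prop where
  | eta (A M : Tm S) : EtaStep (lam A (app (wk M) (var 0))) M
  | appL {M M' : Tm S} (N : Tm S) : EtaStep M M' → EtaStep (app M N) (app M' N)
  | appR (M : Tm S) {N N' : Tm S} : EtaStep N N' → EtaStep (app M N) (app M N')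
  | lamL {A A' : Tm S} (M : Tm S) : EtaStep A A' → EtaStep (lam A M) (lam A' M)
  | lamR (A : Tm S) {M M' : Tm S} : EtaStep M M' → EtaStep (lam A M) (lam A M')
  | piL {A A' : Tm S} (B : Tm S) : EtaStep A A' → EtaStep (pi A B) (pi A' B)
  | piR (A : Tm S) {B B' : Tm S} : EtaStep B B' → EtaStep (pi A B) (pi A B')

/-- One-step beta-eta reduction. -/
def BEStep (M N : Tm S) : Prop := Step M N ∨ EtaStep M N

/-- Strong normalization for beta-eta reduction: no legal expression starts an infinite sequence
of beta and eta steps. -/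
def SNBetaEta (P : Spec S) : Prop :=
  ∀ M, Legal P M → ¬ ∃ f : ℕ → Tm S, f 0 = M ∧ ∀ n, BEStep (f n) (f (n + 1))

/-- Weak normalization for beta-eta reduction: every legal expression reduces to an expression
without beta and eta steps. -/
def WNBetaEta (P : Spec S) : Prop :=
  ∀ M, Legal P M → ∃ N, Relation.ReflTransGen BEStep M N ∧ ∀ Q, ¬ BEStep N Q

/-- `Q` is a subsystem of `P`: its axioms and rules are axioms and rules of `P`. -/
def Subsystem (Q P : Spec S) : Prop :=
  (∀ s t, Q.ax s t → P.ax s t) ∧ ∀ s t u, Q.rule s t u → P.rule s t u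

/-- `Q` has only finitely many axioms and rules. -/
def FinitelyMany (Q : Spec S) : Prop :=
  {p : S × S | Q.ax p.1 p.2}.Finite ∧ {p : S × S × S | Q.rule p.1 p.2.1 p.2.2}.Finite

end Vale.Agent.P340.H744
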