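import Vale.Agent.P340.Bdl.B1
import Vale.Agent.P340.H744.Defs

/-!
Postponement of eta steps: a strongly beta-normalizing expression is strongly
beta-eta-normalizing.
-/

namespace Vale.Agent.P340.H744

universe u

open Tm

variable {S : Type u}

/-- Parallel eta reduction. -/
inductive PE : Tm S → Tm S → Prop where
  | var (n : ℕ) : PE (var n) (var n)
  | sort (s : S) : PE (sort s) (sort s)
  | app {M M' N N' : Tm S} : PE M M' → PE N N' → PE (app M N) (app M' N')
  | lam {A A' M M' : Tm S} : PE A A' → PE M M' → PE (lam A M) (lam A' M')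
  | pi {A A' M M' : Tm S} : PE A A' → PE M M' → PE (pi A M) (pi A' M')
  | eta (A : Tm S) {M M' : Tm S} : PE M M' → PE (lam A (app (wk M) (Tm.var 0))) M'

theorem PE.refl (M : Tm S) : PE M M := by
  induction M with
  | var n => exact .var n
  | sort s => exact .sort s
  | app M N ihM ihN => exact .app ihM ihN
  | lam A M ihA ihM => exact .lam ihA ihM
  | pi A M ihA ihM => exact .pi ihA ihM

theorem EtaStep.pe {M N : Tm S} (h : EtaStep M N) : PE M N := by
  induction h with
  | eta A M => exact .eta A (.refl M)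
  | appL N _ ih => exact .app ih (.refl N)
  | appR M _ ih => exact .app (.refl M) ih
  | lamL M _ ih => exact .lam ih (.refl M)
  | lamR A _ ih => exact .lam (.refl A) ih
  | piL B _ ih => exact .pi ih (.refl B)
  | piR A _ ih => exact .pi (.refl A) ih

theorem PE.ren {M N : Tm S} (h : PE M N) : ∀ r : ℕ → ℕ, PE (M.ren r) (N.ren r) := by
  induction h with
  | var n => intro r; exact .refl _
  | sort s => intro r; exact .refl _
  | app _ _ ih ih' => intro r; exact .app (ih r) (ih' r)
  | lam _ _ ih ih' => intro r; exact .lam (ih r) (ih' _)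
  | pi _ _ ih ih' => intro r; exact .pi (ih r) (ih' _)
  | @eta A M M' _ ih =>
    intro r
    show PE (Tm.lam (Tm.ren r A) (Tm.app (Tm.ren (Tm.up r) (wk M)) (Tm.var 0))) _
    rw [ren_wk]
    exact .eta _ (ih r)

theorem PE.ups {σ τ : ℕ → Tm S} (h : ∀ n, PE (σ n) (τ n)) : ∀ n, PE (Tm.ups σ n) (ups τ n) := by
  intro n
  cases n with
  | zero => exact .refl _
  | succ n => exact (h n).ren _

theorem PE.sub {M N : Tm S} (h : PE M N) :
    ∀ {σ τ : ℕ → Tm S}, (∀ n, PE (σ n) (τ n)) → PE (M.sub σ) (N.sub τ) := by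
  induction h with
  | var n => intro σ τ h; exact h n
  | sort s => intro σ τ h; exact .refl _
  | app _ _ ih ih' => intro σ τ h; exact .app (ih h) (ih' h)
  | lam _ _ ih ih' => intro σ τ h; exact .lam (ih h) (ih' (PE.ups h))
  | pi _ _ ih ih' => intro σ τ h; exact .pi (ih h) (ih' (PE.ups h))
  | @eta A M M' _ ih =>
    intro σ τ h
    show PE (Tm.lam (Tm.sub σ A) (Tm.app (Tm.sub (Tm.ups σ) (wk M)) (Tm.var 0))) _
    rw [sub_wk]
    exact .eta _ (ih h)

theorem PE.inst {M M' N N' : Tm S} (h : PE M M') (h' : PE N N') :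
    PE (Tm.inst M N) (Tm.inst M' N') := by
  apply h.sub
  intro n
  cases n with
  | zero => exact h'
  | succ n => exact .refl _

/-- At least one beta step. -/
def Red1 : Tm S → Tm S → Prop := Relation.TransGen Step

theorem Red1.map {M N : Tm S} (f : Tm S → Tm S) (hf : ∀ a b, Step a b → Step (f a) (f b))
    (h : Red1 M N) : Red1 (f M) (f N) := by
  induction h with
  | single h => exact .single (hf _ _ h)
  | tail _ h ih => exact Relation.TransGen.tail ih (hf _ _ h)

/-- An expression that eta-reduces to an abstraction behaves like one. -/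
theorem PE.lam_inv {M N : Tm S} (h : PE M N) : ∀ A' B', N = Tm.lam A' B' →
    ∃ B, PE B B' ∧ ∀ R, Red1 (Tm.app M R) (Tm.inst B R) := by
  induction h with
  | var n => intro A' B' e; cases e
  | sort s => intro A' B' e; cases e
  | app _ _ _ _ => intro A' B' e; cases e
  | pi _ _ _ _ => intro A' B' e; cases e
  | @lam A A'' M M' _ h _ _ =>
    intro A' B' e
    cases e
    exact ⟨M, h, fun R => .single (.beta A M R)⟩
  | @eta A M M' _ ih =>
    intro A' B' e
    obtain ⟨B, h1, h2⟩ := ih A' B' e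
    refine ⟨B, h1, fun R => Relation.TransGen.head ?_ (h2 R)⟩
    have h3 := Step.beta A (Tm.app (wk M) (Tm.var 0)) R
    have h4 : Tm.inst (Tm.app (wk M) (Tm.var 0)) R = Tm.app M R := by
      show Tm.app (Tm.inst (wk M) R) R = _
      rw [inst_wk]
    rwa [h4] at h3

/-- Postponement for one parallel eta step and one beta step. -/
theorem PE.postpone {M N : Tm S} (h : PE M N) : ∀ Q, Step N Q → ∃ R, Red1 M R ∧ PE R Q := by
  induction h with
  | var n => intro Q h; cases h
  | sort s => intro Q h; cases h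
  | @app M M' N N' hM hN ihM ihN =>
    intro Q h
    cases h with
    | beta A B _ =>
      obtain ⟨C, h1, h2⟩ := hM.lam_inv A B rfl
      exact ⟨Tm.inst C N, h2 N, h1.inst hN⟩
    | appL _ h =>
      obtain ⟨R, h1, h2⟩ := ihM _ h
      exact ⟨Tm.app R N, h1.map (fun x => Tm.app x N) (fun _ _ h => .appL N h), h2.app hN⟩
    | appR _ h =>
      obtain ⟨R, h1, h2⟩ := ihN _ h
      exact ⟨Tm.app M R, h1.map (fun x => Tm.app M x) (fun _ _ h => .appR M h), hM.app h2⟩
  | @lam A A' M M' hA hM ihA ihM =>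
    intro Q h
    cases h with
    | lamL _ h =>
      obtain ⟨R, h1, h2⟩ := ihA _ h
      exact ⟨Tm.lam R M, h1.map (fun x => Tm.lam x M) (fun _ _ h => .lamL M h), h2.lam hM⟩
    | lamR _ h =>
      obtain ⟨R, h1, h2⟩ := ihM _ h
      exact ⟨Tm.lam A R, h1.map (fun x => Tm.lam A x) (fun _ _ h => .lamR A h), hA.lam h2⟩
  | @pi A A' M M' hA hM ihA ihM =>
    intro Q h
    cases h with
    | piL _ h =>
      obtain ⟨R, h1, h2⟩ := ihA _ h
      exact ⟨Tm.pi R M, h1.map (fun x => Tm.pi x M) (fun _ _ h => .piL M h), h2.pi hM⟩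
    | piR _ h =>
      obtain ⟨R, h1, h2⟩ := ihM _ h
      exact ⟨Tm.pi A R, h1.map (fun x => Tm.pi A x) (fun _ _ h => .piR A h), hA.pi h2⟩
  | @eta A M M' _ ih =>
    intro Q h
    obtain ⟨R, h1, h2⟩ := ih Q h
    exact ⟨_, h1.map (fun x => Tm.lam A (Tm.app (wk x) (Tm.var 0)))
      (fun _ _ h => .lamR A (.appL _ (h.ren _))), .eta A h2⟩

theorem PE.postpone1 {M N Q : Tm S} (h : PE M N) (h' : Red1 N Q) : ∃ R, Red1 M R ∧ PE R Q := by
  induction h' with
  | single h' => exact h.postpone _ h'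
  | tail _ h' ih =>
    obtain ⟨R, h1, h2⟩ := ih
    obtain ⟨R', h3, h4⟩ := h2.postpone _ h'
    exact ⟨R', h1.trans h3, h4⟩

/-- Postponement for several eta steps. -/
theorem postpone {M N Q : Tm S} (h : Relation.ReflTransGen PE M N) (h' : Red1 N Q) :
    ∃ R, Red1 M R ∧ Relation.ReflTransGen PE R Q := by
  induction h using Relation.ReflTransGen.head_induction_on with
  | refl => exact ⟨Q, h', .refl⟩
  | head h1 _ ih =>
    obtain ⟨R, h2, h3⟩ := ih
    obtain ⟨R', h4, h5⟩ := h1.postpone1 h2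
    exact ⟨R', h4, Relation.ReflTransGen.head h5 h3⟩

/-- The size of an expression. -/
def size : Tm S → ℕ
  | Tm.var _ => 1
  | Tm.sort _ => 1
  | Tm.app M N => size M + size N + 1
  | Tm.lam A M => size A + size M + 1
  | Tm.pi A B => size A + size B + 1

theorem size_ren (M : Tm S) : ∀ r : ℕ → ℕ, size (M.ren r) = size M := by
  induction M with
  | var n => intro r; rfl
  | sort s => intro r; rfl
  | app M N ihM ihN => intro r; simp [Tm.ren, size, ihM, ihN]
  | lam A M ihA ihM => intro r; simp [Tm.ren, size, ihA, ihM]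
  | pi A M ihA ihM => intro r; simp [Tm.ren, size, ihA, ihM]

theorem EtaStep.size_lt {M N : Tm S} (h : EtaStep M N) : size N < size M := by
  induction h with
  | eta A M =>
    show size M < size A + (size (wk M) + 1 + 1) + 1
    unfold wk
    rw [size_ren]
    omega
  | appL N _ ih => simp only [size]; omega
  | appR M _ ih => simp only [size]; omega
  | lamL M _ ih => simp only [size]; omega
  | lamR A _ ih => simp only [size]; omega
  | piL B _ ih => simp only [size]; omega
  | piR A _ ih => simp only [size]; omega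

/-- A strongly beta-normalizing expression is strongly beta-eta-normalizing. -/
theorem sn_betaEta {M : Tm S} (h : Sn M) : Acc (fun a b => BEStep b a) M := by
  have h1 : Acc (Relation.TransGen fun a b => Step b a) M := h.transGen
  have key : ∀ M : Tm S, Acc (Relation.TransGen fun a b => Step b a) M →
      ∀ N, Relation.ReflTransGen PE M N → Acc (fun a b => BEStep b a) N := by
    intro M hM
    induction hM with
    | intro M _ ih =>
      intro N
      generalize hk : size N = k
      induction k using Nat.strong_induction_on generalizing N with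
      | _ k ihk =>
        intro hN
        refine Acc.intro _ fun Q hQ => ?_
        rcases hQ with hQ | hQ
        · obtain ⟨R, h2, h3⟩ := postpone hN (.single hQ)
          refine ih R ?_ Q h3
          exact Relation.transGen_swap.2 h2
        · have h2 := hQ.size_lt
          exact ihk (size Q) (by omega) Q rfl (hN.tail hQ.pe)
  exact key M h1 M .refl

/-- Weak beta-normalization is equivalent to strong beta-eta-normalization. -/
theorem betaEta (P : Spec S) : WN P ↔ SNBetaEta P := by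
  constructor
  · intro h M hM
    have h1 : Acc (fun a b => BEStep b a) M := sn_betaEta (SN_iff.1 ((main P).1 h) M hM)
    clear hM
    induction h1 with
    | intro M _ ih =>
      rintro ⟨f, h0, h⟩
      exact ih (f 1) (by rw [← h0]; exact h 0) ⟨fun n => f (n + 1), rfl, fun n => h (n + 1)⟩
  · intro h
    refine (main P).2 fun M hM hf => h M hM ?_
    obtain ⟨f, h0, h1⟩ := hf
    exact ⟨f, h0, fun n => Or.inl (h1 n)⟩

theorem wnBetaEta (P : Spec S) (h : WN P) : WNBetaEta P := by
  intro M hM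
  have h1 : Acc (fun a b => BEStep b a) M := sn_betaEta (SN_iff.1 ((main P).1 h) M hM)
  clear hM
  induction h1 with
  | intro M _ ih =>
    by_cases h2 : ∃ Q, BEStep M Q
    · obtain ⟨Q, hQ⟩ := h2
      obtain ⟨N, h3, h4⟩ := ih Q hQ
      exact ⟨N, .head hQ h3, h4⟩
    · exact ⟨M, .refl, fun Q hQ => h2 ⟨Q, hQ⟩⟩

/-! ### Finite subsystems -/

theorem Typ.mono {P Q : Spec S} (h : Subsystem Q P) {Γ : List (Tm S)} {M A : Tm S}
    (hM : Typ Q Γ M A) : Typ P Γ M A := by
  induction hM with
  | ax h1 => exact .ax (h.1 _ _ h1)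
  | var _ ih => exact .var ih
  | weak _ _ ih ih' => exact .weak ih ih'
  | pi _ _ h1 ih ih' => exact .pi ih ih' (h.2 _ _ _ h1)
  | lam _ _ ih ih' => exact .lam ih ih'
  | app _ _ ih ih' => exact .app ih ih'
  | conv _ _ h1 ih ih' => exact .conv ih ih' h1

/-- The union of two specifications. -/
def union (P Q : Spec S) : Spec S where
  ax s t := P.ax s t ∨ Q.ax s t
  rule s t u := P.rule s t u ∨ Q.rule s t u

theorem union_left (P Q : Spec S) : Subsystem P (union P Q) :=
  ⟨fun _ _ => Or.inl, fun _ _ _ => Or.inl⟩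

theorem union_right (P Q : Spec S) : Subsystem Q (union P Q) :=
  ⟨fun _ _ => Or.inr, fun _ _ _ => Or.inr⟩

theorem union_sub {P Q R : Spec S} (h : Subsystem P R) (h' : Subsystem Q R) :
    Subsystem (union P Q) R :=
  ⟨fun _ _ h1 => h1.elim (h.1 _ _) (h'.1 _ _), fun _ _ _ h1 => h1.elim (h.2 _ _ _) (h'.2 _ _ _)⟩

theorem union_finite {P Q : Spec S} (h : FinitelyMany P) (h' : FinitelyMany Q) :
    FinitelyMany (union P Q) :=
  ⟨(h.1.union h'.1).subset fun _ hp => hp, (h.2.union h'.2).subset fun _ hp => hp⟩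

theorem two {P : Spec S} {Γ Δ : List (Tm S)} {M A N B : Tm S}
    (h : ∃ Q, Subsystem Q P ∧ FinitelyMany Q ∧ Typ Q Γ M A)
    (h' : ∃ Q, Subsystem Q P ∧ FinitelyMany Q ∧ Typ Q Δ N B) :
    ∃ Q, Subsystem Q P ∧ FinitelyMany Q ∧ Typ Q Γ M A ∧ Typ Q Δ N B := by
  obtain ⟨Q, h1, h2, h3⟩ := h
  obtain ⟨Q', h1', h2', h3'⟩ := h'
  exact ⟨union Q Q', union_sub h1 h1', union_finite h2 h2', Typ.mono (union_left _ _) h3,
    Typ.mono (union_right _ _) h3'⟩

/-- A derivation uses only finitely many axioms and rules. -/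
theorem Typ.finite {P : Spec S} {Γ : List (Tm S)} {M A : Tm S} (h : Typ P Γ M A) :
    ∃ Q, Subsystem Q P ∧ FinitelyMany Q ∧ Typ Q Γ M A := by
  induction h with
  | @ax s t h =>
    refine ⟨⟨fun a b => a = s ∧ b = t, fun _ _ _ => False⟩, ⟨?_, ?_⟩, ⟨?_, ?_⟩, .ax ⟨rfl, rfl⟩⟩
    · rintro a b ⟨rfl, rfl⟩
      exact h
    · intro a b c h
      exact h.elim
    · refine (Set.finite_singleton (s, t)).subset ?_
      rintro ⟨a, b⟩ ⟨h1, h2⟩
      simp only at h1 h2
      subst h1
      subst h2
      exact rfl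
    · refine Set.finite_empty.subset ?_
      rintro p hp
      exact hp
  | var _ ih =>
    obtain ⟨Q, h1, h2, h3⟩ := ih
    exact ⟨Q, h1, h2, .var h3⟩
  | weak _ _ ih ih' =>
    obtain ⟨Q, h1, h2, h3, h4⟩ := two ih ih'
    exact ⟨Q, h1, h2, .weak h3 h4⟩
  | @pi Γ A B s₁ s₂ s₃ _ _ h ih ih' =>
    obtain ⟨Q, h1, h2, h3, h4⟩ := two ih ih'
    let R : Spec S := ⟨fun _ _ => False, fun a b c => a = s₁ ∧ b = s₂ ∧ c = s₃⟩
    have hR : Subsystem R P := by
      refine ⟨fun _ _ h => h.elim, ?_⟩
      rintro a b c ⟨rfl, rfl, rfl⟩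
      exact h
    have hR' : FinitelyMany R := by
      refine ⟨Set.finite_empty.subset fun p hp => hp,
        (Set.finite_singleton (s₁, s₂, s₃)).subset ?_⟩
      rintro ⟨a, b, c⟩ ⟨e1, e2, e3⟩
      simp only at e1 e2 e3
      rw [e1, e2, e3]
      exact rfl
    exact ⟨union Q R, union_sub h1 hR, union_finite h2 hR',
      .pi (Typ.mono (union_left _ _) h3) (Typ.mono (union_left _ _) h4)
        (Or.inr ⟨rfl, rfl, rfl⟩)⟩
  | lam _ _ ih ih' =>
    obtain ⟨Q, h1, h2, h3, h4⟩ := two ih ih'
    exact ⟨Q, h1, h2, .lam h3 h4⟩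
  | app _ _ ih ih' =>
    obtain ⟨Q, h1, h2, h3, h4⟩ := two ih ih'
    exact ⟨Q, h1, h2, .app h3 h4⟩
  | conv _ _ h ih ih' =>
    obtain ⟨Q, h1, h2, h3, h4⟩ := two ih ih'
    exact ⟨Q, h1, h2, .conv h3 h4 h⟩

/-- A system is strongly normalizing as soon as its finite subsystems are weakly normalizing. -/
theorem compactness (P : Spec S) :
    SNBetaEta P ↔ ∀ Q, Subsystem Q P → FinitelyMany Q → WN Q := by
  rw [← betaEta]
  constructor
  · intro h Q hQ _ M hM
    obtain ⟨Γ, A, hM⟩ := hM
    exact h M ⟨Γ, A, hM.imp (Typ.mono hQ) (Typ.mono hQ)⟩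
  · intro h M hM
    obtain ⟨Γ, A, hM⟩ := hM
    rcases hM with hM | hM
    · obtain ⟨Q, h1, h2, h3⟩ := Typ.finite hM
      exact h Q h1 h2 M ⟨Γ, A, Or.inl h3⟩
    · obtain ⟨Q, h1, h2, h3⟩ := Typ.finite hM
      exact h Q h1 h2 M ⟨Γ, A, Or.inr h3⟩

end Vale.Agent.P340.H744
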